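import Mathlib

/-!
Generic compactness: sequences of functions with bounded second derivatives
(and Lipschitz second derivatives) have locally uniformly convergent
subsequences, together with their derivatives.
-/

namespace Vale.Agent.P227.M.Cpt

open Filter Topology Set

/-- Arzela-Ascoli for sequences with a common modulus. -/
theorem seq_compact_of_modulus {X G : Type*} [PseudoMetricSpace X] [LocallyCompactSpace X]
    [SigmaCompactSpace X] [NormedAddCommGroup G] [ProperSpace G]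
    (F : ℕ → X → G) (R : X → ℝ) (om : X → X → ℝ)
    (hR : ∀ k x, ‖F k x‖ ≤ R x) (hom : ∀ k x y, dist (F k x) (F k y) ≤ om x y)
    (hom0 : ∀ x, Tendsto (fun y => om x y) (𝓝 x) (𝓝 0)) :
    ∃ (g : X → G) (s : ℕ → ℕ), StrictMono s ∧ Continuous g ∧
      TendstoLocallyUniformly (fun k => F (s k)) g atTop := by
  classical
  -- continuity from the modulus
  have hcont : ∀ h : X → G, (∀ x y, dist (h x) (h y) ≤ om x y) → Continuous h := by
    intro h hh
    rw [continuous_iff_continuousAt]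
    intro x
    rw [ContinuousAt, tendsto_iff_dist_tendsto_zero]
    refine squeeze_zero (fun _ => dist_nonneg) (fun y => ?_) (hom0 x)
    rw [dist_comm]
    exact hh x y
  let T : Set (X → G) := {h | (∀ x, h x ∈ Metric.closedBall (0 : G) (R x)) ∧
    ∀ x y, dist (h x) (h y) ≤ om x y}
  have hTc : IsCompact T := by
    have h1 : IsCompact (Set.pi Set.univ fun x => Metric.closedBall (0 : G) (R x)) :=
      isCompact_univ_pi fun x => isCompact_closedBall _ _
    refine h1.of_isClosed_subset ?_ ?_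
    · have : T = (⋂ x, {h : X → G | h x ∈ Metric.closedBall (0 : G) (R x)}) ∩
          ⋂ x, ⋂ y, {h : X → G | dist (h x) (h y) ≤ om x y} := by
        ext h
        simp [T]
      rw [this]
      refine IsClosed.inter (isClosed_iInter fun x => ?_)
        (isClosed_iInter fun x => isClosed_iInter fun y => ?_)
      · exact Metric.isClosed_closedBall.preimage (continuous_apply x)
      · exact isClosed_le ((continuous_apply x).dist (continuous_apply y)) continuous_const
    · intro h hh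
      exact fun x _ => hh.1 x
  let S : Set C(X, G) := {h | (h : X → G) ∈ T}
  have hST : ContinuousMap.toFun '' S = T := by
    ext h
    constructor
    · rintro ⟨u, hu, rfl⟩
      exact hu
    · intro hh
      exact ⟨⟨h, hcont h hh.2⟩, hh, rfl⟩
  have hScomp : IsCompact S := by
    refine ArzelaAscoli.isCompact_of_equicontinuous S (by rw [hST]; exact hTc) ?_
    intro x
    rw [Metric.equicontinuousAt_iff]
    intro e he
    have := (Metric.tendsto_nhds.1 (hom0 x)) e he
    obtain ⟨d, hd, hd2⟩ := Metric.eventually_nhds_iff.1 this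
    refine ⟨d, hd, fun y hy u => ?_⟩
    have h2 := hd2 hy
    rw [Real.dist_0_eq_abs] at h2
    exact lt_of_le_of_lt (u.2.2 x y) (lt_of_le_of_lt (le_abs_self _) h2)
  let Fc : ℕ → C(X, G) := fun k => ⟨F k, hcont _ (hom k)⟩
  have hFS : ∀ k, Fc k ∈ S := by
    intro k
    refine ⟨fun x => ?_, fun x y => hom k x y⟩
    rw [mem_closedBall_zero_iff]
    exact hR k x
  obtain ⟨g, _, s, hs, hg⟩ := hScomp.isSeqCompact hFS
  refine ⟨g, s, hs, g.continuous, ?_⟩
  exact ContinuousMap.tendsto_iff_tendstoLocallyUniformly.1 hg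

theorem tlu_comp {X Z : Type*} [TopologicalSpace X] [UniformSpace Z] {u : ℕ → X → Z}
    {v : X → Z} (huv : TendstoLocallyUniformly u v atTop) {t : ℕ → ℕ} (ht : StrictMono t) :
    TendstoLocallyUniformly (fun k => u (t k)) v atTop := by
  intro w hw x
  obtain ⟨N, hN, hN2⟩ := huv w hw x
  exact ⟨N, hN, ht.tendsto_atTop.eventually hN2⟩

variable {E F : Type*} [NormedAddCommGroup E] [NormedSpace ℝ E] [FiniteDimensional ℝ E]
  [NormedAddCommGroup F] [NormedSpace ℝ F] [FiniteDimensional ℝ F]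

omit [FiniteDimensional ℝ E] [FiniteDimensional ℝ F] in
/-- A function with derivative growing at most linearly: modulus. -/
theorem dist_le_of_fderiv (f : E → F) (hf : Differentiable ℝ f) (B C : ℝ) (hC : 0 ≤ C)
    (hd : ∀ x, ‖fderiv ℝ f x‖ ≤ B + C * ‖x‖) (x y : E) :
    dist (f x) (f y) ≤ (B + C * (‖x‖ + ‖y‖)) * dist x y := by
  rw [dist_comm (f x), dist_comm x, dist_eq_norm, dist_eq_norm]
  refine (convex_segment x y).norm_image_sub_le_of_norm_fderiv_le (fun z _ => hf z) ?_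
    (left_mem_segment ℝ x y) (right_mem_segment ℝ x y)
  intro z hz
  refine (hd z).trans ?_
  have hz2 : ‖z‖ ≤ ‖x‖ + ‖y‖ := by
    obtain ⟨a, b, ha, hb, hab, rfl⟩ := hz
    calc ‖a • x + b • y‖ ≤ ‖a • x‖ + ‖b • y‖ := norm_add_le _ _
      _ = a * ‖x‖ + b * ‖y‖ := by
          rw [norm_smul, norm_smul, Real.norm_of_nonneg ha, Real.norm_of_nonneg hb]
      _ ≤ 1 * ‖x‖ + 1 * ‖y‖ := by
          gcongr <;> linarith
      _ = ‖x‖ + ‖y‖ := by ring
  gcongr

omit [FiniteDimensional ℝ E] [FiniteDimensional ℝ F] in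
theorem growth_of_fderiv (f : E → F) (hf : Differentiable ℝ f) (B0 B C : ℝ) (hC : 0 ≤ C)
    (h0 : ‖f 0‖ ≤ B0) (hd : ∀ x, ‖fderiv ℝ f x‖ ≤ B + C * ‖x‖) (x : E) :
    ‖f x‖ ≤ B0 + (B + C * ‖x‖) * ‖x‖ := by
  have h := dist_le_of_fderiv f hf B C hC hd x 0
  rw [dist_eq_norm, dist_zero_right, norm_zero, add_zero] at h
  calc ‖f x‖ = ‖f 0 + (f x - f 0)‖ := by congr 1; abel
    _ ≤ ‖f 0‖ + ‖f x - f 0‖ := norm_add_le _ _
    _ ≤ _ := add_le_add h0 h

omit [NormedSpace ℝ E] [FiniteDimensional ℝ E] in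
theorem modulus_tendsto (a : E → E → ℝ) (ha : ∀ x, Continuous (a x)) (x : E) :
    Tendsto (fun y => a x y * dist x y) (𝓝 x) (𝓝 0) := by
  have h1 : Continuous fun y => a x y * dist x y :=
    (ha x).mul (continuous_const.dist continuous_id)
  have h2 := h1.tendsto x
  simpa using h2

omit [FiniteDimensional ℝ E] [FiniteDimensional ℝ F] in
/-- Linear growth of the first derivative from a bound for the second one. -/
theorem fderiv_growth (f : E → F) (hf : ContDiff ℝ 2 f) (B1 C : ℝ)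
    (h1 : ‖fderiv ℝ f 0‖ ≤ B1) (h2 : ∀ x, ‖fderiv ℝ (fderiv ℝ f) x‖ ≤ C) (x : E) :
    ‖fderiv ℝ f x‖ ≤ B1 + C * ‖x‖ := by
  have hd : Differentiable ℝ (fderiv ℝ f) :=
    (hf.fderiv_right (m := 1) (by norm_num)).differentiable (by norm_num)
  have h := growth_of_fderiv (fderiv ℝ f) hd B1 C 0 le_rfl h1 (by simpa using h2) x
  simpa using h

/-- `C^{1,1}` compactness. -/
theorem c1_compact (f : ℕ → E → F) (hf : ∀ k, ContDiff ℝ 2 (f k)) (B0 B1 C : ℝ)
    (h0 : ∀ k, ‖f k 0‖ ≤ B0) (h1 : ∀ k, ‖fderiv ℝ (f k) 0‖ ≤ B1)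
    (h2 : ∀ k x, ‖fderiv ℝ (fderiv ℝ (f k)) x‖ ≤ C) :
    ∃ (g : E → F) (s : ℕ → ℕ), StrictMono s ∧ ContDiff ℝ 1 g ∧
      LipschitzWith C.toNNReal (fderiv ℝ g) ∧
      TendstoLocallyUniformly (fun k => f (s k)) g atTop ∧
      TendstoLocallyUniformly (fun k => fderiv ℝ (f (s k))) (fderiv ℝ g) atTop := by
  have hC : 0 ≤ C := le_trans (norm_nonneg (fderiv ℝ (fderiv ℝ (f 0)) 0)) (h2 0 0)
  have hdf : ∀ k, Differentiable ℝ (f k) := fun k => (hf k).differentiable (by norm_num)
  have hddf : ∀ k, Differentiable ℝ (fderiv ℝ (f k)) := fun k =>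
    ((hf k).fderiv_right (m := 1) (by norm_num)).differentiable (by norm_num)
  have hg1 : ∀ k x, ‖fderiv ℝ (f k) x‖ ≤ B1 + C * ‖x‖ := fun k x =>
    fderiv_growth (f k) (hf k) B1 C (h1 k) (h2 k) x
  let Fk : ℕ → E → F × (E →L[ℝ] F) := fun k x => (f k x, fderiv ℝ (f k) x)
  obtain ⟨G, s, hs, hGc, hG⟩ := seq_compact_of_modulus Fk
    (fun x => (B0 + (B1 + C * ‖x‖) * ‖x‖) ⊔ (B1 + C * ‖x‖))
    (fun x y => ((B1 + C * (‖x‖ + ‖y‖)) ⊔ C) * dist x y)
    (by
      intro k x
      rw [Prod.norm_def]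
      exact sup_le_sup (growth_of_fderiv _ (hdf k) B0 B1 C hC (h0 k) (hg1 k) x) (hg1 k x))
    (by
      intro k x y
      rw [Prod.dist_eq, max_mul_of_nonneg _ _ dist_nonneg]
      refine sup_le_sup (dist_le_of_fderiv _ (hdf k) B1 C hC (hg1 k) x y) ?_
      have := dist_le_of_fderiv (fderiv ℝ (f k)) (hddf k) C 0 le_rfl (by simpa using h2 k) x y
      simpa using this)
    (by
      intro x
      exact modulus_tendsto (fun x y => (B1 + C * (‖x‖ + ‖y‖)) ⊔ C) (fun x => by fun_prop) x)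
  have hG1 : TendstoLocallyUniformly (fun k => f (s k)) (fun x => (G x).1) atTop :=
    uniformContinuous_fst.comp_tendstoLocallyUniformly hG
  have hG2 : TendstoLocallyUniformly (fun k => fderiv ℝ (f (s k))) (fun x => (G x).2) atTop :=
    uniformContinuous_snd.comp_tendstoLocallyUniformly hG
  have hder : ∀ x, HasFDerivAt (fun x => (G x).1) ((G x).2) x := by
    intro x
    refine hasFDerivAt_of_tendstoLocallyUniformlyOn (s := Set.univ) isOpen_univ
      (tendstoLocallyUniformlyOn_univ.2 hG2)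
      (fun k x _ => (hdf (s k) x).hasFDerivAt) (fun x _ => ?_) (mem_univ x)
    exact (tendstoLocallyUniformlyOn_univ.2 hG1).tendsto_at (mem_univ x)
  have hfd : fderiv ℝ (fun x => (G x).1) = fun x => (G x).2 := funext fun x => (hder x).fderiv
  refine ⟨fun x => (G x).1, s, hs, ?_, ?_, hG1, ?_⟩
  · rw [contDiff_one_iff_fderiv]
    exact ⟨fun x => (hder x).differentiableAt, by rw [hfd]; exact continuous_snd.comp hGc⟩
  · rw [hfd]
    refine LipschitzWith.of_dist_le_mul fun x y => ?_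
    rw [Real.coe_toNNReal _ hC]
    have t1 := (tendstoLocallyUniformlyOn_univ.2 hG2).tendsto_at (mem_univ x)
    have t2 := (tendstoLocallyUniformlyOn_univ.2 hG2).tendsto_at (mem_univ y)
    refine le_of_tendsto (t1.dist t2) (Eventually.of_forall fun k => ?_)
    have := dist_le_of_fderiv (fderiv ℝ (f (s k))) (hddf (s k)) C 0 le_rfl
      (by simpa using h2 (s k)) x y
    simpa using this
  · rw [hfd]
    exact hG2

/-- `C^{2,1}` compactness. -/
theorem c2_compact (f : ℕ → E → F) (hf : ∀ k, ContDiff ℝ 2 (f k)) (B0 B1 C : ℝ) (M : NNReal)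
    (h0 : ∀ k, ‖f k 0‖ ≤ B0) (h1 : ∀ k, ‖fderiv ℝ (f k) 0‖ ≤ B1)
    (h2 : ∀ k x, ‖fderiv ℝ (fderiv ℝ (f k)) x‖ ≤ C)
    (h3 : ∀ k, LipschitzWith M (fderiv ℝ (fderiv ℝ (f k)))) :
    ∃ (g : E → F) (s : ℕ → ℕ), StrictMono s ∧ ContDiff ℝ 2 g ∧
      LipschitzWith M (fderiv ℝ (fderiv ℝ g)) ∧
      TendstoLocallyUniformly (fun k => f (s k)) g atTop ∧
      TendstoLocallyUniformly (fun k => fderiv ℝ (f (s k))) (fderiv ℝ g) atTop ∧
      TendstoLocallyUniformly (fun k => fderiv ℝ (fderiv ℝ (f (s k))))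
        (fderiv ℝ (fderiv ℝ g)) atTop := by
  have hddf : ∀ k, Differentiable ℝ (fderiv ℝ (f k)) := fun k =>
    ((hf k).fderiv_right (m := 1) (by norm_num)).differentiable (by norm_num)
  obtain ⟨g, s, hs, hg, _, hg0, hg1⟩ := c1_compact f hf B0 B1 C h0 h1 h2
  obtain ⟨K, t, ht, hKc, hK⟩ := seq_compact_of_modulus
    (fun k => fderiv ℝ (fderiv ℝ (f (s k)))) (fun _ => C) (fun x y => M * dist x y)
    (fun k x => h2 (s k) x) (fun k x y => (h3 (s k)).dist_le_mul x y)
    (fun x => modulus_tendsto (fun _ _ => (M : ℝ)) (fun x => by fun_prop) x)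
  have hg0' := tlu_comp hg0 ht
  have hg1' := tlu_comp hg1 ht
  have hder : ∀ x, HasFDerivAt (fderiv ℝ g) (K x) x := by
    intro x
    refine hasFDerivAt_of_tendstoLocallyUniformlyOn (s := Set.univ) isOpen_univ
      (tendstoLocallyUniformlyOn_univ.2 hK)
      (fun k x _ => (hddf (s (t k)) x).hasFDerivAt) (fun x _ => ?_) (mem_univ x)
    exact (tendstoLocallyUniformlyOn_univ.2 hg1').tendsto_at (mem_univ x)
  have hfd : fderiv ℝ (fderiv ℝ g) = K := funext fun x => (hder x).fderiv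
  refine ⟨g, s ∘ t, hs.comp ht, ?_, ?_, hg0', hg1', ?_⟩
  · have h12 : (2 : WithTop ℕ∞) = 1 + 1 := by norm_num
    rw [h12, contDiff_succ_iff_fderiv]
    refine ⟨hg.differentiable (by norm_num), by simp, ?_⟩
    rw [contDiff_one_iff_fderiv]
    exact ⟨fun x => (hder x).differentiableAt, by rw [hfd]; exact hKc⟩
  · rw [hfd]
    refine LipschitzWith.of_dist_le_mul fun x y => ?_
    have t1 := (tendstoLocallyUniformlyOn_univ.2 hK).tendsto_at (mem_univ x)
    have t2 := (tendstoLocallyUniformlyOn_univ.2 hK).tendsto_at (mem_univ y)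
    exact le_of_tendsto (t1.dist t2) (Eventually.of_forall fun k => (h3 _).dist_le_mul x y)
  · rw [hfd]
    exact hK

end Vale.Agent.P227.M.Cpt
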